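import Vale.Agent.P146.R3.H924.Tb9
import Vale.Agent.P146.R3.H729.Eqs
import Vale.Agent.P146.R3.H316.L4b

/-!
# P146: the inputs of the sharper lower exponent, unconditional form
-/

open Filter Topology

namespace Vale.Agent.P146.R3.H924.Tb9

open Vale.Agent.P157.Par (Path Exponents)

/-- the closed equations -/
theorem eqs' {β : ℝ} (hβ : 0 ≤ β) : EQS β := Vale.Agent.P146.R3.H729.Eqs.eqs hβ

/-- The Parisi side: near minimisers of the functional (`P0` is its infimum) satisfy the contact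
equation up to quadratic errors on both sides. -/
def ParU2 (β P0 : ℝ) : Prop := ∃ C : ℝ, 1 ≤ C ∧ ∀ η : ℝ, 0 < η → η ≤ 1 →
  ∃ (K : ℕ) (m q : ℕ → ℝ), Exponents K m ∧ Path K q ∧ q K ≤ 1 ∧ Sk.PSK β K m q ≤ P0 + η ∧
    ∀ u ∈ Set.Icc (0 : ℝ) 1, 1 - C * u ^ 2 - η ≤ β * Vale.Agent.P166.F.Lam K m q u ∧
      β * Vale.Agent.P166.F.Lam K m q u ≤ 1 - u ^ 2 / C + η

theorem paru2 {β : ℝ} (hβ : 1 < β) : ParU2 β (Sh.P0 β) := by
  obtain ⟨C, hC, h⟩ := P316.l4_up hβ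
  refine ⟨C, hC, fun η hη hη1 => ?_⟩
  obtain ⟨K, m, q, hm, hq, -, hq1, hP, hu⟩ := h η hη hη1
  exact ⟨K, m, q, hm, hq, hq1, hP, fun u hu' => hu u hu'.1 hu'.2⟩

end Vale.Agent.P146.R3.H924.Tb9
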